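import Vale.Agent.P078.Expected.Final

namespace Vale.Agent.Results.P078.SoPavingAllMasas

open Vale.Agent.P078.Finite (IsMasaIn SoPavableIn)

universe u

theorem result :
    ∃ C : ℝ, 0 < C ∧
      ∀ (H : Type u) [NormedAddCommGroup H] [InnerProductSpace ℂ H] [CompleteSpace H]
        (M : VonNeumannAlgebra H) (A : StarSubalgebra ℂ (H →L[ℂ] H)),
        IsMasaIn M A → ∀ ε : ℝ, 0 < ε → ε < 1 →
          ∃ r : ℕ, 1 ≤ r ∧ (r : ℝ) ≤ C / ε ^ 2 ∧
            ∀ x ∈ M, IsSelfAdjoint x → SoPavableIn M A ε r x :=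
  Vale.Agent.P078.Expected.soPaving_count

end Vale.Agent.Results.P078.SoPavingAllMasas
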